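import Vale.Agent.P057T.Rst.St
import Vale.Agent.P057T.Rg.Ent

/-! A regular host is a tower with ordered groups. -/

set_option linter.all false

open MvPolynomial Finset
open scoped Real

namespace Vale.Agent.P057T.Rst

open Vale.Agent.P057T.Eq Vale.Agent.P057T.Cfg Vale.Agent.P057T.Sb Vale.Agent.P057L
open Vale.Agent.P057T.Rg (St gp tk)

namespace EmbA

variable {ι : Type} [Fintype ι] [DecidableEq ι] {s : ℕ}

theorem q0 {G : GT ι} (hG : G.Ok s) {b : ι} (hb : G.g b = 0) : G.q b = 0 := by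
  ext m
  by_contra h
  by_cases h0 : m = 0
  · subst h0
    have h1 : 0 = G.w b := (map_zero _).symm.trans (hG.qh b h)
    have := hG.w1 b
    omega
  · obtain ⟨a, ha⟩ := Finsupp.support_nonempty_iff.2 h0
    have := hG.ql b a ((mem_vars_iff_mem_support a).2 ⟨m, mem_support_iff.2 h, ha⟩)
    omega

theorem w1 {S : St ι} (h : S.Ok s) : W1 S.G = gp S.G 0 := by
  ext a
  have := h.lv a
  simp only [W1, gp, mem_filter, mem_univ, true_and]
  omega

theorem hV {G : GT ι} (hG : G.Ok s) (a b : ι) (ha : a ∉ gp G 0) (hb : b ∈ gp G 0) :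
    G.A a b = 0 := by
  by_contra h
  have := (hG.blk a b (Or.inl h)).1
  simp only [gp, mem_filter, mem_univ, true_and] at ha hb
  exact ha (this.trans hb)

theorem gq_eq {G : GT ι} (hG : G.Ok s) {z : ι → ℤ} (hz : z ∈ Lat (gp G 0)) :
    Real.exp (-π * ∑ a ∈ gp G 0, (eval (cz z) (G.th a)) ^ 2) = Poi.gq G.A (cz z) := by
  unfold Poi.gq P267.H775.qf
  congr 2
  rw [← Finset.sum_subset (subset_univ (gp G 0))]
  · refine Finset.sum_congr rfl fun a ha => ?_
    congr 1
    unfold GT.th Matrix.mulVec dotProduct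
    rw [map_sum]
    refine Finset.sum_congr rfl fun b _ => ?_
    by_cases h : G.A a b = 0
    · simp [h]
    · have := (hG.blk a b (Or.inl h)).1
      rw [q0 hG (this.symm.trans (mem_filter.1 ha).2)]
      simp
  · intro a _ ha
    have : G.A.mulVec (cz z) a = 0 := Finset.sum_eq_zero fun b _ => by
      by_cases hb : b ∈ gp G 0
      · show G.A a b * _ = 0
        rw [hV hG a b ha hb, zero_mul]
      · show G.A a b * (z b : ℝ) = 0
        rw [hz b hb, Int.cast_zero, mul_zero]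
    rw [this, sq, mul_zero]

theorem nu_eq (S : St ι) (z : ι → ℤ) : S.G.nu S.AT z = S.wt z := by
  unfold St.wt St.sq GT.nu
  congr 2
  exact Finset.sum_congr rfl fun a _ => congrArg (· ^ 2) (one_mul _)

end EmbA

open EmbA Rg.En in
theorem emb : EMB := by
  intro s N A D R b c c' Y hs hc hY hb hcc hlog hN ⟨ι, _, _, S, WW, hD, hI, hW, hW0, hRg⟩
  have hG := hI.ok.ok
  obtain ⟨x0, l, l1, hpi⟩ := aff hG.w1 hI.ok.pz hI.ok.p1
  have hev : ∀ z : ι → ℤ, eval (cz z) S.pi = (Sb.pj x0 l z : ℝ) := fun z => by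
    rw [hpi]
    simp [Sb.pj, cz]
  have hS : s ≤ S0 s := Nat.le_mul_of_pos_right s (Nat.succ_pos s)
  have hk : kt S.G l = tk S.G S.ker := by
    unfold kt tk
    refine tsum_congr fun z => ?_
    have e : (z ∈ Lat (W1 S.G) ∧ ∑ a, l a * z a = 0) ↔ z ∈ S.ker := by
      rw [w1 hI.ok]
      refine and_congr_right fun _ => ?_
      have e0 : eval 0 S.pi = (x0 : ℝ) := by rw [hpi]; simp
      rw [hev, e0, Int.cast_inj, Sb.pj, add_eq_left]
    by_cases hz : z ∈ S.ker
    · rw [if_pos (e.2 hz), Set.indicator_of_mem hz, w1 hI.ok, gq_eq hG hz.1]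
    · rw [if_neg (fun h => hz (e.1 h)), Set.indicator_of_notMem hz]
  have R0 : 0 ≤ R := (hW.nn 0).trans hW0
  refine ⟨ι, _, _, ⟨S.G, S.AT, WW, x0, l⟩, hD, ⟨⟨hG.w1, fun a => (hG.ws a).trans hS,
    fun a => (hG.gs a).trans_le hS, hG.AB, hG.blk, hG.qh, hG.ql, hG.qe⟩, hG.ws, hG.gs,
    (Rg.br0 s ι S hI.ok).1, rfl, rfl, hW, hW0, l1, ?_⟩, ?_, fun g _ => ?_, ?_⟩
  · show N * kt S.G l ≤ Real.exp R * S.G.dv (W1 S.G)
    rw [hk, w1 hI.ok]
    exact hI.kr
  · rintro (rfl : l = 0)
    have hk : S.ker = Lat (gp S.G 0) := by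
      ext z
      simp only [St.ker, Set.mem_setOf_eq, SetLike.mem_coe, and_iff_left_iff_imp]
      intro _
      rw [hpi]
      simp
    have h1 := Rg.BrP.dv_pos hG (hV hG)
    have h2 := Rg.BrP.dv_le_tk hG (hV hG)
    have h3 := hI.kr
    rw [hk] at h3
    have h4 := mul_le_mul_of_nonneg_left h2 (Nat.cast_nonneg N)
    have h5 : (N : ℝ) ≤ Real.exp R := le_of_mul_le_mul_right (h4.trans h3) h1
    have h7 : (0 : ℝ) < N := by
      rcases (Nat.cast_nonneg N : (0 : ℝ) ≤ N).eq_or_lt with h | h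
      · rw [← h, Real.log_zero] at hN; linarith
      · exact h
    have h8 := (Real.log_le_iff_le_exp h7).2 h5
    linarith
  · by_cases hg : g < s
    · have h1 := hW.nn (g + 1)
      have h2 := hW.nn g
      have h3 := hW.anti (Nat.zero_le g)
      refine ⟨big_mono (hRg g hg).1 (Real.exp_le_exp.2
        (mul_le_mul_of_nonneg_right (by linarith) (by linarith))),
        small_mono (hRg g hg).2 ((min_le_left _ _).trans ?_)⟩
      show Real.exp (-(c' * (Y + WW (g + 1)))) ≤
        Real.exp (-(c * (Y + WW (g + 1)))) * (c * (Y + WW g))⁻¹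
      have e1 : c * (Y + R) ≤ Real.exp (c * Y) := (Real.log_le_iff_le_exp (by positivity)).1 hlog
      have e2 : Real.exp (-(c * (Y + WW (g + 1)))) ≤ (c * (Y + WW g))⁻¹ := by
        rw [Real.exp_neg]
        refine inv_anti₀ (by positivity) (le_trans ?_ (e1.trans (Real.exp_le_exp.2 ?_)))
        · exact mul_le_mul_of_nonneg_left (by linarith) (by linarith)
        · exact mul_le_mul_of_nonneg_left (by linarith) (by linarith)
      refine le_trans ?_ (mul_le_mul_of_nonneg_left e2 (Real.exp_pos _).le)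
      rw [← Real.exp_add]
      refine Real.exp_le_exp.2 ?_
      have := mul_le_mul_of_nonneg_right hcc (by linarith : 0 ≤ Y + WW (g + 1))
      linarith
    · refine ⟨fun e k I h1 _ _ _ _ a ha => ?_, fun j _ hj => ?_⟩
      · exact absurd ((h1 a ha).1 ▸ hG.gs a) hg
      · exact absurd (hj ▸ hG.gs j) hg
  · show ∑' z : ι → ℤ, S.G.nu S.AT z ≤ ∑' z : ι → ℤ, S.G.nu S.AT z * fA A b x0 l z
    have e : ∀ z, S.G.nu S.AT z * fA A b x0 l z = b⁻¹ * (S.wt z * S.ind A z) := fun z => by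
      rw [nu_eq]
      unfold fA St.ind
      rw [hev]
      by_cases h : Sb.pj x0 l z ∈ A
      · rw [if_pos h, if_pos ⟨_, h, rfl⟩]; ring
      · rw [if_neg h, if_neg fun ⟨x, hx, e⟩ => h (Int.cast_injective e ▸ hx)]; ring
    simp only [e]
    simp only [nu_eq]
    rw [tsum_mul_left, le_inv_mul_iff₀ hb]
    exact hI.de

end Vale.Agent.P057T.Rst
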