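import Vale.Agent.P057T.Rst.St2
import Vale.Agent.P057T.Rst.Emb

/-! A regular host in the form of the entry row is a tower with ordered groups. -/

set_option linter.all false

open MvPolynomial Finset
open scoped Real

namespace Vale.Agent.P057T.Rst

open Vale.Agent.P057T.Eq Vale.Agent.P057T.Cfg Vale.Agent.P057T.Sb Vale.Agent.P057L
open Vale.Agent.P057T.Rg (St gp tk)

open EmbA in
theorem emb2 : EMB2 := by
  intro s N A ι _ _ S WW x0 l R b c Y hs hb h
  have hI := h.inv
  have hG := hI.ok.ok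
  have hev := h.pj
  have hS : s ≤ S0 s := Nat.le_mul_of_pos_right s (Nat.succ_pos s)
  have hk : kt S.G l = tk S.G S.ker := by
    unfold kt tk
    refine tsum_congr fun z => ?_
    have e : (z ∈ Lat (W1 S.G) ∧ ∑ a, l a * z a = 0) ↔ z ∈ S.ker := by
      rw [w1 hI.ok]
      refine and_congr_right fun _ => ?_
      have e0 : eval 0 S.pi = (x0 : ℝ) := by
        have h0 := hev 0
        have h1 : cz (0 : ι → ℤ) = 0 := by funext a; simp [cz]
        rw [h1] at h0
        rw [h0]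
        simp [Sb.pj]
      rw [hev, e0, Int.cast_inj, Sb.pj, add_eq_left]
    by_cases hz : z ∈ S.ker
    · rw [if_pos (e.2 hz), Set.indicator_of_mem hz, w1 hI.ok, gq_eq hG hz.1]
    · rw [if_neg (fun h => hz (e.1 h)), Set.indicator_of_notMem hz]
  refine ⟨⟨⟨hG.w1, fun a => (hG.ws a).trans hS,
    fun a => (hG.gs a).trans_le hS, hG.AB, hG.blk, hG.qh, hG.ql, hG.qe⟩, hG.ws, hG.gs,
    (Rg.br0 s ι S hI.ok).1, rfl, rfl, h.wd, h.w0, h.l1, ?_⟩, fun g _ => ?_, ?_⟩
  · show N * kt S.G l ≤ Real.exp R * S.G.dv (W1 S.G)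
    rw [hk, w1 hI.ok]
    exact hI.kr
  · by_cases hg : g < s
    · exact h.rs g hg
    · refine ⟨fun e k I h1 _ _ _ _ a ha => ?_, fun j _ hj => ?_⟩
      · exact absurd ((h1 a ha).1 ▸ hG.gs a) hg
      · exact absurd (hj ▸ hG.gs j) hg
  · have e : ∀ z, S.G.nu S.AT z * fA A b x0 l z = b⁻¹ * (S.wt z * S.ind A z) := fun z => by
      rw [nu_eq]
      unfold fA St.ind
      rw [hev]
      by_cases h : Sb.pj x0 l z ∈ A
      · rw [if_pos h, if_pos ⟨_, h, rfl⟩]; ring
      · rw [if_neg h, if_neg fun ⟨x, hx, e⟩ => h (Int.cast_injective e ▸ hx)]; ring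
    simp only [e]
    simp only [nu_eq]
    rw [tsum_mul_left, le_inv_mul_iff₀ hb]
    exact hI.de

end Vale.Agent.P057T.Rst
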