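import Vale.Agent.P057T.Rst.St2
import Vale.Agent.P057T.Sb.Subl

/-! The two ends of the chain. -/

set_option linter.all false

open Finset
open scoped BigOperators

namespace Vale.Agent.P057T.Rst

open Vale.Agent.P057T.Eq Vale.Agent.P057T.Cfg Vale.Agent.P057T.Sb Vale.Agent.P057L

noncomputable section

namespace En

variable {ι : Type} [Fintype ι] [DecidableEq ι]

theorem rsm {G : GT ι} {WW : ℕ → ℝ} {c c' Y Y' : ℝ} {s : ℕ} (h : Rs G WW c' Y' s)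
    (hW : ∀ g, 0 ≤ WW g) (hc : 0 < c) (hc' : c ≤ c') (hY0 : 0 < Y) (hY : Y ≤ Y') :
    Rs G WW c Y s := by
  intro g hg
  have h2 : ∀ g, 0 < c * (Y + WW g) := fun g => mul_pos hc (by linarith [hW g])
  have h1 : ∀ g, c * (Y + WW g) ≤ c' * (Y' + WW g) := fun g =>
    mul_le_mul hc' (by linarith) (by linarith [hW g]) (by linarith)
  refine ⟨fun e k I a1 a2 a3 a4 ⟨b, a5, a6⟩ => (h g hg).1 e k I a1 a2 a3 a4
    ⟨b, a5, a6.trans (Real.exp_le_exp.2 (h1 g))⟩, fun j hj e => ?_⟩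
  obtain ⟨v, v1, v2, v3⟩ := (h g hg).2 j hj e
  exact ⟨v, v1, v2, fun a => (v3 a).trans (mul_le_mul (Real.exp_le_exp.2 (neg_le_neg (h1 _)))
    (inv_anti₀ (h2 g) (h1 g)) (inv_nonneg.2 ((h2 g).le.trans (h1 g))) (Real.exp_pos _).le)⟩

theorem ho0m {s N : ℕ} {A : Finset ℤ} {D R b D' R' b' : ℝ} (h : Rg.Ho0 s N A D R b) (h1 : D ≤ D')
    (h2 : R ≤ R') (h3 : b' ≤ b) : Rg.Ho0 s N A D' R' b' := by
  obtain ⟨ι, i1, i2, S, a, c⟩ := h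
  exact ⟨ι, i1, i2, S, a.trans h1, c.mono (fun _ => h2) (fun _ => h2) h2 h2 h3⟩

theorem hom (s N : ℕ) (A : Finset ℤ) (D R b D' R' : ℝ) (h1 : D ≤ D') (h2 : R ≤ R')
    (h : Rg.Ho s N A D R b) : Rg.Ho s N A D' R' b :=
  h.imp id fun h => ho0m h h1 h2 le_rfl

theorem grdV_one {m : ℕ} (q N : ℕ) (g : Vz m → ℝ) : grdV 1 q N g = (𝔼 z ∈ bz m N, g z) ^ q := by
  unfold grdV gridA
  rw [expect_pow]
  refine expect_nbij' (fun W => W 0) (fun y => fun _ => y) ?_ ?_ ?_ ?_ ?_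
  · intro W hW; exact Fintype.mem_piFinset.1 hW 0
  · intro y hy; exact Fintype.mem_piFinset.2 fun _ => hy
  · intro W _; funext i; rw [Subsingleton.elim i 0]
  · intro y _; rfl
  · intro W hW
    exact Fintype.prod_equiv (Equiv.funUnique (Fin 1) (Fin q)) _ _ fun c => by simp

theorem grdV_mul {m : ℕ} (n q N : ℕ) (a : ℝ) (g : Vz m → ℝ) :
    grdV n q N (fun z => a * g z) = a ^ (q ^ n) * grdV n q N g := by
  unfold grdV gridA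
  rw [mul_expect]
  refine expect_congr rfl fun W _ => ?_
  rw [prod_mul_distrib, prod_const]
  simp

theorem ome_one {m : ℕ} (s : ℕ) (K : ℝ) : ome (m := m) s K 1 = om s K := by
  funext ν; simp [ome]

theorem pp {P : ℝ} (h : 2 ≤ P) {a b : ℕ} (e : a ≤ b) : P ^ a ≤ P ^ b :=
  pow_le_pow_right₀ (by linarith) e

theorem up {P x y U : ℝ} (h : 2 ≤ P) (hU : 0 ≤ U) {a b c : ℕ} (hx : x ≤ P ^ a * U)
    (hy : y ≤ P ^ b * U) (e1 : a < c) (e2 : b < c) : x + y ≤ P ^ c * U := by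
  have := mul_le_mul_of_nonneg_right (add_pw_le h e1 e2) hU
  linarith

theorem um {P x y U : ℝ} (h : 2 ≤ P) (hU : 0 ≤ U) {a c : ℕ} (hx : x ≤ P) (hy0 : 0 ≤ y)
    (hy : y ≤ P ^ a * U) (e : a < c) : x * y ≤ P ^ c * U := by
  calc x * y ≤ P * (P ^ a * U) := mul_le_mul hx hy hy0 (by linarith)
    _ = P ^ (a + 1) * U := by ring
    _ ≤ _ := mul_le_mul_of_nonneg_right (pp h (by omega)) hU

theorem uw {P x U : ℝ} (h : 2 ≤ P) (hU : 0 ≤ U) {a c : ℕ} (hx : x ≤ P ^ a * U) (e : a ≤ c) :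
    x ≤ P ^ c * U := hx.trans (mul_le_mul_of_nonneg_right (pp h e) hU)

theorem uu {P U : ℝ} (h : 2 ≤ P) (hU : 0 ≤ U) (a b : ℕ) : P ^ a * (P ^ b * U) ≤ P ^ (a + b) * U :=
  le_of_eq (by ring)

theorem nL {X0 Y0 Y η Λ : ℝ} (η0 : 0 < η) (uη : 192 ≤ η * Real.exp X0) (h1 : X0 ≤ Y0) (h2 : Y0 ≤ Y)
    (h3 : 10 ≤ Y) (k3 : Y ^ 2 ≤ Λ) :
    Real.exp (4 * Y0 + 20) * (3 * Real.exp X0 / η) ^ 2 ≤ Real.exp Λ := by
  have e0 := Real.exp_pos X0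
  have k1 : 3 * Real.exp X0 / η ≤ Real.exp X0 * Real.exp X0 := by
    rw [div_le_iff₀ η0]; nlinarith
  have k2 : (3 * Real.exp X0 / η) ^ 2 ≤ (Real.exp X0 * Real.exp X0) ^ 2 :=
    pow_le_pow_left₀ (by positivity) k1 2
  refine (mul_le_mul_of_nonneg_left k2 (Real.exp_pos _).le).trans ?_
  rw [← Real.exp_add, sq, ← Real.exp_add, ← Real.exp_add]
  refine Real.exp_le_exp.2 ?_
  nlinarith

theorem nr {X0 η : ℝ} (η0 : 0 < η) (uη : 192 ≤ η * Real.exp X0) (h : 1 ≤ X0) :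
    64 * (3 * Real.exp X0) ≤ η * 2 ^ ⌈3 * X0⌉₊ := by
  have e0 := Real.exp_pos X0
  have k1 : Real.exp X0 * Real.exp X0 ≤ (2 : ℝ) ^ ⌈3 * X0⌉₊ := by
    rw [← Real.exp_add, ← Real.exp_log (show (0 : ℝ) < 2 by norm_num), ← Real.exp_nat_mul]
    refine Real.exp_le_exp.2 ?_
    nlinarith [Nat.le_ceil (3 * X0), Real.log_two_gt_d9]
  nlinarith

theorem nm {X0 : ℝ} {S m : ℕ} (h : 1 ≤ X0) (h1 : 32 * S * X0 ≤ m) : 8 * S * ⌈3 * X0⌉₊ ≤ m := by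
  have k1 : (⌈3 * X0⌉₊ : ℝ) ≤ 4 * X0 := by
    linarith [Nat.ceil_lt_add_one (show 0 ≤ 3 * X0 by linarith)]
  have : ((8 * S * ⌈3 * X0⌉₊ : ℕ) : ℝ) ≤ m := by
    push_cast
    nlinarith [mul_le_mul_of_nonneg_left k1 (Nat.cast_nonneg (α := ℝ) S)]
  exact_mod_cast this

theorem ome_bd {m S : ℕ} {K E Z : ℝ} (K1 : 1 ≤ K) (Z0 : 0 ≤ Z) (KZ : K ^ S ≤ Real.exp Z)
    (E1 : Real.exp (-Z) ≤ E) (E2 : K ^ S * E ≤ Real.exp Z) (ν : Option (Fin m) →₀ ℕ) :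
    Real.exp (-Z) ≤ ome S K E ν ∧ ome S K E ν ≤ Real.exp Z := by
  have k1 : 1 ≤ om S K ν := one_le_pow₀ K1
  have k2 : om S K ν ≤ K ^ S := pow_le_pow_right₀ K1 (min_le_left _ _)
  have k3 : 0 ≤ E := (Real.exp_pos _).le.trans E1
  unfold ome
  split_ifs
  · rw [mul_one]
    exact ⟨le_trans (Real.exp_le_one_iff.2 (by linarith)) k1, k2.trans KZ⟩
  · exact ⟨E1.trans (le_mul_of_one_le_left k3 k1), (mul_le_mul_of_nonneg_right k2 k3).trans E2⟩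

theorem mean {G : GT ι} {m p L : ℕ} (β : Bx G m) (g : (ι → ℤ) → ℝ) (hg : ∀ z, 0 ≤ g z) {θ a : ℝ}
    (p1 : 1 ≤ p) (L0 : 0 < L) (h : θ ^ (p ^ (0 + 1)) ≤ grdV (0 + 1) p L (bx β 0 1 g)) :
    θ - a ≤ 𝔼 t ∈ bz m L, (g (Cfg.ev (pt t) β) - a) := by
  rw [zero_add, pow_one, grdV_one] at h
  have k2 : θ ≤ 𝔼 z ∈ bz m L, bx β 0 1 g z :=
    le_of_pow_le_pow_left₀ (by omega) (expect_nonneg fun z _ => hg _) h
  have k3 : (bz m L).Nonempty := ⟨0, Fintype.mem_piFinset.2 fun _ => by simp [rg, L0]⟩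
  have k4 : 𝔼 t ∈ bz m L, (g (Cfg.ev (pt t) β) - a) = 𝔼 t ∈ bz m L, bx β 0 1 g t - a := by
    rw [expect_sub_distrib, expect_const k3]
    simp [bx]
  rw [k4]; linarith

theorem cd0 {x P : ℝ} {m S : ℕ} (h0 : 0 ≤ x) (h : x * (4 * m + 5) ^ S ≤ P) : x ≤ P :=
  le_trans (le_mul_of_one_le_right h0 (one_le_pow₀ (by
    have : (0 : ℝ) ≤ m := Nat.cast_nonneg _
    linarith))) h

theorem cnts (hC : COUNT) (S : ℕ) : ∃ c : ℕ, ∀ (ι : Type) [Fintype ι] [DecidableEq ι] (G : GT ι)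
    (T : AT ι) (WW : ℕ → ℝ) (P Z : ℝ) (m a e : ℕ), G.Ok S → G.Wd WW → G.AOk T P → T.U = univ →
    (c : ℝ) ≤ P → 1 ≤ Z → (Fintype.card ι : ℝ) * (4 * m + 5) ^ S ≤ P → (4 * m + 5 : ℝ) ≤ P →
    a + c ≤ e → Rs G WW (P ^ e) (P ^ e * Z) S →
    Cnts G T (4 * m + 4) (Real.exp (-(P ^ a * Z))) (P ^ a * Z) := by
  obtain ⟨c2, hC⟩ := hC S
  refine ⟨c2 + 3 * S + S ^ 3 + 6, fun ι _ _ G T WW P Z m a e ok wd ao un hP Z1 cd mP he rs => ?_⟩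
  push_cast at hP
  have n1 : (0 : ℝ) ≤ c2 := Nat.cast_nonneg _
  have n2 : (0 : ℝ) ≤ S := Nat.cast_nonneg _
  have n3 : (0 : ℝ) ≤ (S : ℝ) ^ 3 := by positivity
  have P2 : 2 ≤ P := by linarith
  have Z0 : 0 ≤ Z := by linarith
  have zz : Z ≤ P ^ a * Z := le_mul_of_one_le_left Z0 (one_le_pow₀ (by linarith))
  refine hC ι G T WW P _ _ (4 * m + 4) ok wd ⟨cd0 (Nat.cast_nonneg _) cd, P2, Z1.trans zz⟩ ao un
    (Z0.trans zz) ?_ (rsm rs wd.nn (by positivity) (pp P2 (by omega)) (by positivity) ?_)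
  · refine le_trans (le_of_eq ?_) cd
    push_cast; ring
  · have a1 : (3 * (S : ℝ) + 6) * (P ^ a * Z) ≤ P ^ (a + 1) * Z :=
      um P2 Z0 (by linarith) (by positivity) le_rfl (by omega)
    have a2 : (S : ℝ) ^ 3 * ((4 * m + 4 : ℕ) : ℝ) ≤ P ^ 2 * Z := by
      refine um (a := 1) P2 Z0 (by linarith) (Nat.cast_nonneg _) ?_ (by omega)
      push_cast
      nlinarith
    exact up P2 Z0 (up (c := a + 2) P2 Z0 le_rfl a1 (by omega) (by omega)) a2 (by omega)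
      (by omega)

theorem nf {P Q R Z Λ : ℝ} {a b v w : ℕ} (P2 : 2 ≤ P) (Q1 : 1 ≤ Q) (PQ : P ≤ Q ^ w) (R0 : 0 ≤ R)
    (ZR : Z ≤ R) (Λ0 : 0 ≤ Λ) (hv : w * (a + b + 1) ≤ v) :
    P ^ a * (R + P ^ b * Z) ≤ Q ^ v * (R + Λ) := by
  have k1 : R + P ^ b * Z ≤ P ^ (b + 1) * R := by
    have : 1 ≤ P ^ b := one_le_pow₀ (by linarith)
    have h2 : P ^ b * Z ≤ P ^ b * R := mul_le_mul_of_nonneg_left ZR (by positivity)
    have h3 : R ≤ P ^ b * R := le_mul_of_one_le_left R0 this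
    have h4 : 0 ≤ P ^ b * R := by positivity
    rw [pow_succ', mul_assoc]
    nlinarith
  have k2 : P ^ (a + b + 1) ≤ Q ^ v := by
    refine (pow_le_pow_left₀ (by linarith) PQ _).trans ?_
    rw [← pow_mul]
    exact pw_le Q1 hv
  calc P ^ a * (R + P ^ b * Z) ≤ P ^ a * (P ^ (b + 1) * R) :=
        mul_le_mul_of_nonneg_left k1 (by positivity)
    _ = P ^ (a + b + 1) * R := by ring
    _ ≤ _ := mul_le_mul k2 (by linarith) R0 (by positivity)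

end En

open En

theorem lift (hW : WIN) (hL : LIFT) (hC : COUNT) (s : ℕ) (hs : 1 ≤ s) (η : ℝ) (η0 : 0 < η)
    (η1 : η ≤ 1) : ∃ c C : ℕ, ∀ (N : ℕ) (A : Finset ℤ) (D R b Y Λ θ : ℝ), (C : ℝ) ≤ Y →
    A ⊆ rg N → 1 ≤ D → D ≤ Real.exp Y → 1 ≤ R → Real.exp (-Y) ≤ b → 1 + 2 * η ≤ θ → θ ≤ 1 + 3 * η →
    Y ^ C ≤ Λ → (D * Y) ^ C * (R + Λ) ≤ Real.log N → StC s 0 N A D R b Y Λ θ c →
    Rg.Ho s N A D ((D * Y) ^ C * (R + Λ)) ((1 + η) * b) := by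
  obtain ⟨cW, hW⟩ := hW s
  obtain ⟨cL, hL⟩ := hL (S0 s)
  obtain ⟨c2, hC⟩ := cnts hC (S0 s)
  obtain ⟨S, hS⟩ : ∃ S, S = S0 s := ⟨_, rfl⟩
  obtain ⟨u, hu⟩ : ∃ u : ℕ, u = ⌈192 / η⌉₊ := ⟨_, rfl⟩
  obtain ⟨v, hv⟩ : ∃ v : ℕ, v = (2 * S0 s + 2) * (cW + (cL + 2) + 1) := ⟨_, rfl⟩
  have S1 : 1 ≤ S := by rw [hS, S0]; nlinarith
  refine ⟨cL + c2 + 32 * S + u + 10, v + 10, ?_⟩
  rintro N A D R b Y Λ θ hY hA d1 d2 r1 hb t1 t2 hΛ hN
    ⟨ι, i1, i2, H, m, p, L, d, x, P, Y0, X0, Z, K, E, Fam, tw, sc, rs, hx, fm, gr⟩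
  obtain ⟨rfl, rfl⟩ := hx rfl
  have cX := sc.cX
  have Xm := sc.Xm
  push_cast at cX Xm hY
  have n0 : (0 : ℝ) ≤ cL := Nat.cast_nonneg _
  have n1 : (0 : ℝ) ≤ c2 := Nat.cast_nonneg _
  have n2 : (0 : ℝ) ≤ S := Nat.cast_nonneg _
  have n4 : (0 : ℝ) ≤ u := Nat.cast_nonneg _
  have n5 : (0 : ℝ) ≤ v := Nat.cast_nonneg _
  have XP : X0 ≤ P := sc.XY.trans sc.YP
  have X1 : 1 ≤ X0 := by linarith
  have P2 : 2 ≤ P := by linarith
  have Z1 : 1 ≤ Z := by linarith [sc.PZ]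
  have Z0 : 0 ≤ Z := by linarith
  have b0 : 0 < b := (Real.exp_pos _).trans_le sc.bX
  have eX : X0 ≤ Real.exp X0 := by linarith [Real.add_one_le_exp X0]
  have bi : 1 / b ≤ Real.exp X0 := by
    rw [div_le_iff₀ b0]
    have := mul_le_mul_of_nonneg_left sc.bX (Real.exp_pos X0).le
    rwa [← Real.exp_add, add_neg_cancel, Real.exp_zero] at this
  have uη : 192 ≤ η * Real.exp X0 := by
    have : 192 / η ≤ u := hu ▸ Nat.le_ceil _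
    rw [div_le_iff₀' η0] at this
    exact this.trans (mul_le_mul_of_nonneg_left (by linarith) η0.le)
  have zz : ∀ a : ℕ, Z ≤ P ^ a * Z := fun a => le_mul_of_one_le_left Z0 (one_le_pow₀ (by linarith))
  have cn := hC ι H.G H.T H.WW P Z m (cL + 2) _ tw.ok tw.wd (tw.ao P (by linarith)) tw.un
    (by linarith) Z1 sc.cd sc.mP (by omega) rs
  have sg0 : ∀ a, 0 ≤ H.T.sg a := fun a => by rw [tw.sg]; norm_num
  have w1 : P ^ cL * Z ≤ P ^ (cL + 2) * Z := uw P2 Z0 le_rfl (by omega)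
  have f0 : ∀ z, 0 ≤ fA A b H.x0 H.l z ∧ fA A b H.x0 H.l z ≤ Real.exp X0 := fun z => by
    unfold fA
    split_ifs
    · exact ⟨by positivity, bi⟩
    · exact ⟨le_rfl, (Real.exp_pos _).le⟩
  have L0 : 0 < L := by
    have : (0 : ℝ) < L := (Real.exp_pos _).trans_le sc.LΛ
    exact_mod_cast this
  have m0 : (0 : ℝ) ≤ m := Nat.cast_nonneg _
  have q1 : 32 * S * X0 ≤ m := le_trans (mul_le_mul_of_nonneg_right (by linarith) (by linarith)) Xm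
  have k3 : Y ^ 2 ≤ Λ := (pw_le (by linarith) (by omega)).trans hΛ
  obtain ⟨n, σ, y, c', a1, a2, a3, a4, a5⟩ := hL ι H.G H.T P Y0 Z (3 * Real.exp X0) η m L ⌈3 * X0⌉₊
    (ome (S0 s) K E) (fun z => fA A b H.x0 H.l z - (1 + η)) Fam (hS ▸ S1) tw.ok
    (tw.ao P (by linarith)) tw.un P2 Z1 (by linarith [sc.XY]) (sc.YP.trans sc.PZ)
    (le_trans (mul_le_mul_of_nonneg_left (pow_le_pow_left₀ (by positivity) (by linarith) _)
      (Nat.cast_nonneg _)) sc.cd)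
    (ome_bd sc.K1 Z0 sc.KZ sc.E1 sc.E2) sc.LZ η0 (by linarith)
    ((nL η0 uη sc.XY sc.YY (by linarith) k3).trans sc.LΛ)
    (by
      have : ((3 : ℕ) : ℝ) ≤ ⌈3 * X0⌉₊ := le_trans (by push_cast; linarith) (Nat.le_ceil _)
      exact_mod_cast this)
    (hS ▸ nm X1 q1) (nr η0 uη X1)
    (cnts_mono sg0 (Real.exp_le_exp.2 (by linarith)) w1 cn)
    (fun z => by rw [abs_le]; constructor <;> linarith [(f0 z).1, (f0 z).2]) fm
    (fun β hβ => le_trans (by linarith) (mean β _ (fun z => (f0 z).1) sc.p1 L0 (gr β hβ)))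
  have w2 : Y0 + 3 ≤ P ^ (cL + 2) * Z := by
    have h1 : P ^ 2 * Z ≤ P ^ (cL + 2) * Z := uw P2 Z0 le_rfl (by omega)
    have h2 : 4 * Z ≤ P ^ 2 * Z := mul_le_mul_of_nonneg_right (by nlinarith) Z0
    linarith [sc.YP, sc.PZ]
  have fin := hW _ N (4 * m + 4) A ι H D R P (P ^ (cL + 2) * Z) _ (η / 4) (1 + η) b hs tw
    ⟨cd0 (Nat.cast_nonneg _) sc.cd, P2, le_rfl⟩ sc.hD r1 (by positivity) b0
    (by
      have k1 : Real.exp (-(P ^ (cL + 2) * Z)) ≤ Real.exp (-1) :=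
        Real.exp_le_exp.2 (by linarith [zz (cL + 2)])
      have k2 := Real.exp_neg_one_lt_d9
      linarith) cn
    ⟨n, σ, y, c', a1, a2.trans (Real.exp_le_exp.2 w2), a3, a4.trans (Real.exp_le_exp.2 w1), a5⟩
  exact Or.inr (ho0m fin le_rfl (nf P2 (one_le_mul_of_one_le_of_one_le d1 (by linarith)) sc.PD
    (by linarith) sc.ZR (le_trans (by positivity) k3) (by omega))
    (mul_le_mul_of_nonneg_right (by linarith) b0.le))

end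

end Vale.Agent.P057T.Rst
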