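import Vale.Agent.P057T.Rst.St
import Vale.Agent.P057T.Eq.Bdw
import Vale.Agent.P057T.Eq.P1m

/-! Row MERGE: the groups are merged by weight. -/

set_option linter.all false

open MvPolynomial Finset
open scoped Real BigOperators

namespace Vale.Agent.P057T.Rst

open Vale.Agent.P057T.Eq Vale.Agent.P057T.Cfg Vale.Agent.P057T.Sb Vale.Agent.P057L

noncomputable section

namespace Mg

variable {ι : Type} [Fintype ι] [DecidableEq ι]

/-- the coefficient of `X c` -/
def lc (c : ι) (F : MvPolynomial ι ℝ) : ℝ := coeff (Finsupp.single c 1) F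

theorem lc_eq (c : ι) (F : MvPolynomial ι ℝ) : lc c F = constantCoeff (pderiv c F) := by
  rw [constantCoeff_eq, coeff_pderiv]; simp [lc]

theorem lc_X (c b : ι) : lc c (X b) = if b = c then 1 else 0 := by
  rw [lc, coeff_X']
  simp only [Finsupp.single_left_inj (one_ne_zero (α := ℕ))]

theorem lc_lin (c : ι) (k : ι → ℝ) : lc c (∑ b, C (k b) * X b) = k c := by
  have : ∀ b, coeff (Finsupp.single c 1) (C (k b) * X b : MvPolynomial ι ℝ) =
      if b = c then k b else 0 := fun b => by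
    rw [coeff_C_mul]
    have := lc_X c b
    rw [lc] at this
    rw [this]
    split_ifs <;> simp
  rw [lc, coeff_sum]
  simp [this]

theorem lc_mul (c : ι) (F G : MvPolynomial ι ℝ) :
    lc c (F * G) = constantCoeff F * lc c G + lc c F * constantCoeff G := by
  simp only [lc_eq, Derivation.leibniz, smul_eq_mul, map_add, map_mul]
  ring

theorem cc_aeval (ψ : ι → MvPolynomial ι ℝ) (h : ∀ b, constantCoeff (ψ b) = 0)
    (F : MvPolynomial ι ℝ) : constantCoeff (aeval ψ F) = constantCoeff F := by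
  induction F using MvPolynomial.induction_on with
  | C a => simp
  | add p q hp hq => simp only [map_add, hp, hq]
  | mul_X p b hp => simp [h b]

theorem lc_aeval (ψ : ι → MvPolynomial ι ℝ) (h : ∀ b, constantCoeff (ψ b) = 0) (c : ι)
    (F : MvPolynomial ι ℝ) : lc c (aeval ψ F) = ∑ b, lc b F * lc c (ψ b) := by
  induction F using MvPolynomial.induction_on with
  | C a => simp [lc_eq]
  | add p q hp hq =>
    rw [map_add]
    simp only [lc, coeff_add, add_mul, sum_add_distrib] at hp hq ⊢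
    rw [hp, hq]
  | mul_X p b hp =>
    rw [map_mul, aeval_X, lc_mul, h b, mul_zero, add_zero, cc_aeval ψ h]
    simp [lc_mul, lc_X]

variable {G : GT ι} {s e : ℕ}

theorem lc_w {F : MvPolynomial ι ℝ} (h : G.Hm e F) {c : ι} (hc : lc c F ≠ 0) : G.w c = e := by
  have := h hc
  rwa [Finsupp.weight_single, one_smul] at this

theorem cc_hm {F : MvPolynomial ι ℝ} (h : G.Hm e F) (he : 1 ≤ e) : constantCoeff F = 0 := by
  by_contra hc
  have := h (d := 0) hc
  rw [map_zero] at this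
  omega

theorem lc_lo {g : ℕ} {F : MvPolynomial ι ℝ} (h : G.Lo g F) {c : ι} (hc : lc c F ≠ 0) :
    G.g c < g :=
  h c ((mem_vars c).2 ⟨_, mem_support_iff.2 hc, by simp⟩)

theorem hm_lin {k : ι → ℝ} (h : ∀ b, k b ≠ 0 → G.w b = e) : G.Hm e (∑ b, C (k b) * X b) := by
  refine IsWeightedHomogeneous.sum _ _ _ fun b _ => ?_
  by_cases hb : k b = 0
  · simp [hb, isWeightedHomogeneous_zero]
  · have := (isWeightedHomogeneous_X ℝ G.w b).C_mul (k b)
    rwa [h b hb] at this

theorem vars_lin {k : ι → ℝ} : ∀ c ∈ (∑ b, C (k b) * X b : MvPolynomial ι ℝ).vars, k c ≠ 0 := by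
  refine Chart.vars_sum' fun b _ => ?_
  by_cases hb : k b = 0
  · simp [hb]
  · exact Chart.vars_mul' (Chart.vars_C' _) (Chart.vars_X' hb)

/-- no linear terms: only variables of smaller weight -/
theorem vars_lt (w1 : ∀ a, 1 ≤ G.w a) {F : MvPolynomial ι ℝ} (h : G.Hm e F)
    (h0 : ∀ c, lc c F = 0) : ∀ c ∈ F.vars, G.w c < e := by
  intro c hc
  obtain ⟨m, hm, hcm⟩ := (mem_vars c).1 hc
  have hw := h (mem_support_iff.1 hm)
  have hle : Finsupp.single c 1 ≤ m := by
    rw [Finsupp.single_le_iff]; exact Nat.one_le_iff_ne_zero.2 (Finsupp.mem_support_iff.1 hcm)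
  obtain ⟨m', rfl⟩ := exists_add_of_le hle
  rw [map_add, Finsupp.weight_single, one_smul] at hw
  by_contra hn
  have h1 : Finsupp.weight G.w m' = 0 := by omega
  have h2 : m' = 0 := by
    by_contra hm'
    obtain ⟨b, hb⟩ := Finsupp.support_nonempty_iff.2 hm'
    have := Finsupp.le_weight_of_ne_zero (w := G.w) (fun _ => Nat.zero_le _)
      (Finsupp.mem_support_iff.1 hb)
    have := w1 b
    omega
  rw [h2, add_zero] at hm
  exact mem_support_iff.1 hm (h0 c)

def A1 (G : GT ι) : Matrix ι ι ℝ := Matrix.of fun a c => lc c (G.th a)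

def rr (G : GT ι) (a : ι) : MvPolynomial ι ℝ := ∑ c, C (A1 G a c) * X c - G.th a

def B1 (ψ : ι → MvPolynomial ι ℝ) : Matrix ι ι ℝ := Matrix.of fun b a => lc a (ψ b)

/-- the merged tower -/
def G1 (G : GT ι) (ψ : ι → MvPolynomial ι ℝ) : GT ι :=
  ⟨fun a => G.w a - 1, G.w, A1 G, B1 ψ, fun b => ∑ a, C (B1 ψ b a) * rr G a, ∅⟩

theorem a1_w (h : G.Ok s) {a c : ι} (hc : A1 G a c ≠ 0) : G.w c = G.w a := lc_w (th_hm h a) hc

theorem rr_hm (h : G.Ok s) (a : ι) : G.Hm (G.w a) (rr G a) :=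
  (hm_lin fun c hc => a1_w h hc).sub (th_hm h a)

theorem rr_lt (h : G.Ok s) (a : ι) : ∀ c ∈ (rr G a).vars, G.w c < G.w a :=
  vars_lt h.w1 (rr_hm h a) fun c => by
    have := lc_lin c (A1 G a)
    rw [rr, lc, coeff_sub]
    rw [lc] at this
    rw [this]
    exact sub_self _

theorem rr_one (h : G.Ok s) {a : ι} (ha : G.w a = 1) : rr G a = 0 := by
  have h1 : (rr G a).vars = ∅ := eq_empty_of_forall_notMem fun c hc => by
    have := rr_lt h a c hc
    have := h.w1 c
    omega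
  have h2 : rr G a = C (constantCoeff (rr G a)) := by
    ext m
    rw [coeff_C]
    split_ifs with hm
    · subst hm; rfl
    · by_contra hc
      obtain ⟨b, hb⟩ := Finsupp.support_nonempty_iff.2 (Ne.symm hm)
      have : b ∈ (rr G a).vars := (mem_vars b).2 ⟨m, mem_support_iff.2 hc, hb⟩
      simp [h1] at this
  rw [h2, cc_hm (rr_hm h a) (h.w1 a), map_zero]

/-- the properties of the inverse chart -/
structure Iv (G : GT ι) (ψ : ι → MvPolynomial ι ℝ) : Prop where
  i2 : ∀ a, aeval ψ (G.th a) = X a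
  hm : ∀ a, G.Hm (G.w a) (ψ a)
  lo : ∀ a, G.Lo (G.g a) (ψ a - ∑ b, C (G.B a b) * X b)

variable {ψ : ι → MvPolynomial ι ℝ}

theorem ab1 (h : G.Ok s) (k : Iv G ψ) : A1 G * B1 ψ = 1 := by
  ext a c
  have := lc_aeval ψ (fun b => cc_hm (k.hm b) (h.w1 b)) c (G.th a)
  rw [k.i2, lc_X] at this
  rw [Matrix.mul_apply, Matrix.one_apply, this]
  rfl

theorem b1_w (k : Iv G ψ) {b a : ι} (hc : B1 ψ b a ≠ 0) : G.w a = G.w b := lc_w (k.hm b) hc

theorem b1_eq (k : Iv G ψ) {b a : ι} (hg : G.g b ≤ G.g a) : B1 ψ b a = G.B b a := by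
  by_contra hn
  have h1 : lc a (ψ b - ∑ c, C (G.B b c) * X c) ≠ 0 := by
    have := lc_lin a (G.B b)
    rw [lc] at this
    rw [lc, coeff_sub, this]
    exact sub_ne_zero.2 hn
  have := lc_lo (k.lo b) h1
  omega

theorem th1 (h : G.Ok s) (k : Iv G ψ) (a : ι) : (G1 G ψ).th a = G.th a := by
  have e : ∑ b, C (A1 G a b) * ∑ x, C (B1 ψ b x) * rr G x = rr G a := by
    simp only [mul_sum, ← mul_assoc, ← C_mul]
    rw [sum_comm]
    simp only [← sum_mul, ← map_sum, ← Matrix.mul_apply, ab1 h k, Matrix.one_apply]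
    simp [apply_ite C, ite_mul]
  show ∑ b, C (A1 G a b) * (X b - ∑ x, C (B1 ψ b x) * rr G x) = G.th a
  simp only [mul_sub, sum_sub_distrib]
  rw [e, rr]
  ring

theorem ok1 (h : G.Ok s) (k : Iv G ψ) {t : ℕ} (ws : ∀ a, G.w a ≤ t) : (G1 G ψ).Ok t where
  w1 := h.w1
  ws := ws
  gs a := by
    have := h.w1 a
    have := ws a
    show G.w a - 1 < t
    omega
  AB := ab1 h k
  blk a b hab := by
    have : G.w a = G.w b := hab.elim (fun x => (a1_w h x).symm) fun x => (b1_w k x).symm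
    exact ⟨congrArg (· - 1) this, this⟩
  qh b := by
    refine IsWeightedHomogeneous.sum _ _ _ fun a _ => ?_
    by_cases hb : B1 ψ b a = 0
    · simp [hb, isWeightedHomogeneous_zero]
    · have := (rr_hm h a).C_mul (B1 ψ b a)
      rwa [b1_w k hb] at this
  ql b := by
    refine Chart.vars_sum' fun a _ => ?_
    by_cases hb : B1 ψ b a = 0
    · simp [hb]
    · refine Chart.vars_mul' (Chart.vars_C' _) fun c hc => ?_
      have := rr_lt h a c hc
      have := b1_w k hb
      have := h.w1 c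
      show G.w c - 1 < G.w b - 1
      omega
  qe a ha := absurd ha (notMem_empty a)

theorem dv1 (h : G.Ok s) (k : Iv G ψ) (V : Finset ι) : (G1 G ψ).dv V = G.dv V := by
  have t1 : ((B1 ψ).submatrix (Subtype.val : V → ι) (Subtype.val : V → ι)).transpose.BlockTriangular
      fun a => G.g a.1 := fun i j hij => by
    show B1 ψ j.1 i.1 = 0
    rw [b1_eq k hij.le]
    by_contra hn
    exact hij.ne (h.blk _ _ (Or.inr hn)).1
  have t2 : (G.B.submatrix (Subtype.val : V → ι) (Subtype.val : V → ι)).transpose.BlockTriangular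
      fun a => G.g a.1 := fun i j hij => by
    show G.B j.1 i.1 = 0
    by_contra hn
    exact hij.ne (h.blk _ _ (Or.inr hn)).1
  show |((B1 ψ).submatrix _ _).det| = |(G.B.submatrix _ _).det|
  rw [← Matrix.det_transpose, t1.det, ← Matrix.det_transpose (G.B.submatrix _ _), t2.det]
  refine congrArg _ (prod_congr rfl fun g _ => congrArg _ ?_)
  ext i j
  exact b1_eq k (j.2.trans i.2.symm).le

/-- the tower of linear parts -/
def G2 (G : GT ι) : GT ι := ⟨G.g, G.w, G.A, G.B, fun a => ∑ c, C (lc c (G.q a)) * X c, ∅⟩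

theorem ok2 (h : G.Ok s) : (G2 G).Ok s where
  w1 := h.w1
  ws := h.ws
  gs := h.gs
  AB := h.AB
  blk := h.blk
  qh a := hm_lin (G := G) fun c hc => lc_w (h.qh a) hc
  ql a c hc := lc_lo (h.ql a) (vars_lin c hc)
  qe a ha := absurd ha (notMem_empty a)

theorem th2 (G : GT ι) (a : ι) (x : ι → ℝ) : eval x ((G2 G).th a) = ∑ c, A1 G a c * x c := by
  have e : ∀ c, A1 G a c = G.A a c - ∑ b, G.A a b * lc c (G.q b) := fun c => by
    have := lc_lin c (G.A a)
    rw [lc] at this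
    show coeff _ (∑ b, C (G.A a b) * (X b - G.q b)) = _
    simp only [mul_sub, sum_sub_distrib, coeff_sub, this, coeff_sum, coeff_C_mul, lc]
  show eval x (∑ b, C (G.A a b) * (X b - ∑ c, C (lc c (G.q b)) * X c)) = _
  simp only [e, map_sum, map_mul, map_sub, eval_C, eval_X, mul_sub, sub_mul, sum_sub_distrib,
    mul_sum, sum_mul]
  rw [sum_comm (f := fun c b => G.A a b * lc c (G.q b) * x c)]
  simp only [mul_assoc]

theorem gq_eq (h : G.Ok s) {V : Finset ι} (hV : ∀ a c, G.w c = G.w a → c ∈ V → a ∈ V)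
    {z : ι → ℤ} (hz : z ∈ Lat V) :
    Poi.gq (A1 G) (cz z) = Real.exp (-π * ∑ a ∈ V, (∑ c, A1 G a c * cz z c) ^ 2) := by
  unfold Poi.gq Vale.Agent.P267.H775.qf
  refine congrArg (fun t => Real.exp (-π * t)) (sum_subset (subset_univ V) fun a _ ha => ?_).symm
  have : ∑ c, A1 G a c * cz z c = 0 := sum_eq_zero fun c _ => by
    by_cases hc : A1 G a c = 0
    · rw [hc, zero_mul]
    · have : z c = 0 := hz c fun hcV => ha (hV a c (a1_w h hc) hcV)
      simp [cz, this]
  simp only [Matrix.mulVec, dotProduct, this]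
  simp

theorem theta (s : ℕ) : ∃ c : ℕ, ∀ (ι : Type) [Fintype ι] [DecidableEq ι] (G : GT ι)
    (WW : ℕ → ℝ) (P : ℝ) (ψ : ι → MvPolynomial ι ℝ) (g : ℕ), G.Ok s → G.Wd WW → Sz ι P 1 →
    Rg.tk (G1 G ψ) (Lat (Rg.gp (G1 G ψ) g)) ≤
      Real.exp (P ^ c * (1 + WW 0)) * G.dv (Rg.gp (G1 G ψ) g) := by
  obtain ⟨c, hc⟩ := p1m s
  refine ⟨c, fun ι _ _ G WW P ψ g h hW hS => ?_⟩
  set V := Rg.gp (G1 G ψ) g with hVd
  have hV : ∀ a c, G.w c = G.w a → (c ∈ V ↔ a ∈ V) := fun a c e => by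
    rw [hVd, Rg.gp, mem_filter, mem_filter]
    simp only [mem_univ, true_and, G1, e]
  have P1 : 1 ≤ P := by linarith [hS.P2]
  have ao : (G2 G).AOk ⟨V, fun _ => 0, fun _ => 1⟩ P :=
    { bk := fun a b hab => (hV a b (h.blk a b hab).2.symm).symm
      qv := fun a ha c hc => (hV a c (lc_w (h.qh a) (vars_lin c hc))).2 ha
      pv := fun a _ => by simp
      pd := fun a _ m hm => by simp at hm
      pl := fun a _ b hb => by simp at hb
      s1 := fun _ => inv_le_one_of_one_le₀ P1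
      s2 := fun _ => P1 }
  have k := (hc ι (G2 G) _ WW P 0 (ok2 h) ⟨hW.anti, hW.nn, hW.bd⟩ hS ao).2
  have e1 : (G2 G).ms ⟨V, fun _ => 0, fun _ => 1⟩ = Rg.tk (G1 G ψ) (Lat V) := by
    unfold Rg.tk GT.ms
    rw [← _root_.tsum_subtype]
    refine tsum_congr fun z => ?_
    show _ = Poi.gq (A1 G) (cz z.1)
    rw [gq_eq h (fun a c e hc => (hV a c e).1 hc) z.2]
    simp only [GT.nu, GT.ch, add_zero, one_mul, th2]
  have e2 : (G2 G).ms ((⟨V, fun _ => 0, fun _ => 1⟩ : AT ι).rs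
      (V.filter fun a => (G2 G).g a < 0)) = 1 := by
    have : V.filter (fun a => (G2 G).g a < 0) = ∅ := by simp
    rw [this]
    unfold GT.ms
    refine (tsum_eq_single 0 fun b hb => ?_).trans ?_
    · exact absurd (Subtype.ext (funext fun a => b.2 a (notMem_empty a))) hb
    · simp [GT.nu, AT.rs]
  have e3 : (G2 G).mn (fun _ => 1) (V.filter fun a => ¬ (G2 G).g a < 0) = G.dv V := by
    have : V.filter (fun a => ¬ (G2 G).g a < 0) = V := by simp
    rw [this]
    simp [GT.mn, GT.dv, G2]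
  rw [e1, e2, e3, mul_one] at k
  exact k

end Mg

open Mg

theorem merge : MERGE := by
  intro s
  obtain ⟨c, hc⟩ := theta (S0 s)
  refine ⟨c + 1, fun n N A ι _ _ H D R P b α hs hT hS hD hR hα hm hb => ?_⟩
  obtain ⟨ψ, -, i2, i3, i4⟩ := inv _ ι H.G hT.ok
  have k : Iv H.G ψ := ⟨i2, i3, i4⟩
  have h := hT.ok
  have P2 := hS.P2
  have P1 : 1 ≤ P := by linarith
  have Pc : 1 ≤ P ^ c := one_le_pow₀ P1
  have hRR : R ≤ P ^ (c + 1) * R := le_mul_of_one_le_left (by linarith) (one_le_pow₀ P1)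
  have dn : ∀ V, 0 ≤ H.G.dv V := fun V => abs_nonneg _
  let S : Rg.St ι := ⟨G1 H.G ψ, H.T.p, C (H.x0 : ℝ) + ∑ a, C (H.l a : ℝ) * X a⟩
  have epi : ∀ z : ι → ℤ, eval (cz z) S.pi = (pj H.x0 H.l z : ℝ) := fun z => by
    simp [S, pj, cz]
  have ewt : ∀ z, S.wt z = H.G.nu H.T z := fun z => by
    simp only [Rg.St.wt, Rg.St.sq, Rg.St.ch, GT.nu, GT.ch, hT.un, hT.sg, one_mul, S, th1 h k]
  have ems : S.ms = ∑' z : ι → ℤ, H.G.nu H.T z := tsum_congr ewt
  have ph : ∀ g, Rg.tk S.G (Lat (Rg.gp S.G g)) ≤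
      Real.exp (P ^ (c + 1) * R) * S.G.dv (Rg.gp S.G g) := fun g => by
    refine (hc ι H.G H.WW P ψ g h hT.wd hS).trans ?_
    rw [show S.G.dv (Rg.gp S.G g) = H.G.dv (Rg.gp S.G g) from dv1 h k _]
    refine mul_le_mul_of_nonneg_right (Real.exp_le_exp.2 ?_) (dn _)
    have := hT.w0
    rw [pow_succ, mul_assoc]
    exact mul_le_mul_of_nonneg_left (by nlinarith) (by linarith)
  have eg : Rg.gp S.G 0 = W1 H.G := by
    ext a
    have := h.w1 a
    rw [Rg.gp, W1, mem_filter, mem_filter]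
    show (_ ∧ H.G.w a - 1 = 0) ↔ _
    simp only [mem_univ, true_and]
    omega
  refine ⟨ι, inferInstance, inferInstance, S, hD, ⟨⟨ok1 h k hT.ws, fun a => ?_, fun a => ?_,
    fun a ha => absurd ha (notMem_empty a), fun m => ?_, fun m hm => ?_⟩, ph, fun g => ?_, ?_, ?_,
    ?_⟩⟩
  · have := h.w1 a
    show H.G.w a - 1 + 1 = H.G.w a
    omega
  · exact (hT.ao 1 le_rfl).pd a (hT.un ▸ mem_univ a)
  · refine ⟨coeff m (C H.x0 + ∑ a, C (H.l a) * X a : MvPolynomial ι ℤ), ?_⟩
    have := coeff_map (Int.castRingHom ℝ) (C H.x0 + ∑ a, C (H.l a) * X a : MvPolynomial ι ℤ) m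
    simpa [S] using this
  · have hm' := mem_support_iff.1 hm
    by_cases h0 : m = 0
    · rw [h0, map_zero]; exact two_pos
    · have h1 : coeff m (∑ a, C (H.l a : ℝ) * X a : MvPolynomial ι ℝ) ≠ 0 := by
        intro h1
        apply hm'
        show coeff m (C (H.x0 : ℝ) + ∑ a, C (H.l a : ℝ) * X a : MvPolynomial ι ℝ) = 0
        rw [coeff_add, h1, coeff_C, if_neg (Ne.symm h0), add_zero]
      have := hm_lin (G := H.G) (e := 1) (k := fun a => (H.l a : ℝ))
        (fun a ha => hT.l1 a (by exact_mod_cast ha)) h1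
      show Finsupp.weight H.G.w m < 2
      omega
  · have : Rg.gp S.G g \ S.G.ex = Rg.gp S.G g := sdiff_empty
    rw [this]
    exact ph g
  · rw [ems, show S.G.dv univ = H.G.dv univ from dv1 h k _]
    refine le_trans (mul_le_mul_of_nonneg_right (Real.exp_le_exp.2 ?_) (dn _)) hm
    linarith
  · have e : Rg.tk S.G S.ker = kt H.G H.l := by
      unfold Rg.tk kt
      refine tsum_congr fun z => ?_
      have e0 : eval 0 S.pi = (H.x0 : ℝ) := by simp [S]
      have e1 : z ∈ S.ker ↔ z ∈ Lat (W1 H.G) ∧ ∑ a, H.l a * z a = 0 := by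
        simp only [Rg.St.ker, Set.mem_setOf_eq, eg, epi, e0, pj, Int.cast_inj, add_eq_left]
      by_cases hz : z ∈ S.ker
      · rw [Set.indicator_of_mem hz, if_pos (e1.1 hz)]
        show Poi.gq (A1 H.G) (cz z) = _
        rw [gq_eq h (V := W1 H.G) (fun a c e hc => by
          simp only [W1, mem_filter, mem_univ, true_and] at hc ⊢; omega) (e1.1 hz).1]
        refine congrArg (fun t => Real.exp (-π * t)) (sum_congr rfl fun a ha => ?_)
        have := rr_one h (mem_filter.1 ha).2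
        rw [rr, sub_eq_zero] at this
        rw [← this]
        simp
      · rw [Set.indicator_of_notMem hz, if_neg fun x => hz (e1.2 x)]
    rw [e, eg, show S.G.dv (W1 H.G) = H.G.dv (W1 H.G) from dv1 h k _]
    exact hT.kr.trans (mul_le_mul_of_nonneg_right (Real.exp_le_exp.2 hRR) (dn _))
  · have e : S.hit A = α * ∑' z : ι → ℤ, H.G.nu H.T z * fA A α H.x0 H.l z := by
      unfold Rg.St.hit
      rw [← tsum_mul_left]
      refine tsum_congr fun z => ?_
      rw [ewt, Rg.St.ind, epi, fA]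
      simp only [Int.cast_inj, exists_eq_right']
      split_ifs
      · field_simp
      · simp
    rw [e, ems, mul_comm b α, mul_assoc]
    exact mul_le_mul_of_nonneg_left hb hα.le

end

end Vale.Agent.P057T.Rst
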