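import Vale.Agent.P057T.Sb.Defs
import Vale.Agent.P057T.Rg.Defs
import Vale.Agent.P057T.Chain

/-! The concrete state of the chain of stages and the rows at its two ends. -/

open MvPolynomial Finset
open scoped Real BigOperators

namespace Vale.Agent.P057T.Rst

open Vale.Agent.P057T.Eq Vale.Agent.P057T.Cfg Vale.Agent.P057T.Sb Vale.Agent.P057L

noncomputable section

/-- a tower with widths and the projection `x0 + l z` -/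
structure Dt (ι : Type) where
  G : GT ι
  T : AT ι
  WW : ℕ → ℝ
  x0 : ℤ
  l : ι → ℤ

variable {ι : Type} [Fintype ι] [DecidableEq ι]

/-- bound for the number of groups -/
def S0 (s : ℕ) : ℕ := s * (s + 1)

/-- the variables of weight one -/
def W1 (G : GT ι) : Finset ι := univ.filter fun a => G.w a = 1

open Classical in
/-- Gaussian mass of the kernel of the projection in the top chart -/
def kt (G : GT ι) (l : ι → ℤ) : ℝ :=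
  ∑' z : ι → ℤ, if z ∈ Lat (W1 G) ∧ ∑ a, l a * z a = 0 then
    Real.exp (-π * ∑ a ∈ W1 G, (eval (cz z) (G.th a)) ^ 2) else 0

/-- a host with ordered groups `< n` and weights `≤ s` -/
structure Tw (s n N : ℕ) (H : Dt ι) (R : ℝ) : Prop where
  ok : H.G.Ok (S0 s)
  ws : ∀ a, H.G.w a ≤ s
  gs : ∀ a, H.G.g a < n
  ao : ∀ P : ℝ, 1 ≤ P → H.G.AOk H.T P
  un : H.T.U = univ
  sg : H.T.sg = fun _ => 1
  wd : H.G.Wd H.WW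
  w0 : H.WW 0 ≤ R
  l1 : ∀ a, H.l a ≠ 0 → H.G.w a = 1
  kr : N * kt H.G H.l ≤ Real.exp R * H.G.dv (W1 H.G)

/-- scales of the boxes: `K ^ degree * E` on the slopes, one on the base point -/
def ome {m : ℕ} (s : ℕ) (K E : ℝ) : (Option (Fin m) →₀ ℕ) → ℝ :=
  fun ν => om s K ν * if ν.degree - ν none = 0 then 1 else E

/-- sizes and scales of a state -/
structure Sc (s : ℕ) (ι : Type) [Fintype ι] (D R b Y Λ : ℝ) (c m p L d : ℕ) (x : Fin m → ℤ)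
    (P Y0 X0 Z K E : ℝ) : Prop where
  hD : (Fintype.card ι : ℝ) ≤ D
  cX : (c : ℝ) ≤ X0
  bX : Real.exp (-X0) ≤ b
  Xm : c * X0 ≤ m
  XY : X0 ≤ Y0
  mY : (m : ℝ) ≤ Y0
  YY : Y0 ≤ Y
  YP : Y0 ≤ P
  cd : (Fintype.card ι : ℝ) * (4 * m + 5) ^ S0 s ≤ P
  mP : (4 * m + 5 : ℝ) ≤ P
  PD : P ≤ (D * Y) ^ (2 * S0 s + 2)
  p1 : 1 ≤ p
  pY : (p : ℝ) ≤ Y0
  d1 : 1 ≤ d
  dY : (d : ℝ) ≤ Y0
  LΛ : Real.exp Λ ≤ L
  LZ : (L : ℝ) ≤ Real.exp Z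
  PZ : P ≤ Z
  ZR : Z ≤ R
  K1 : 1 ≤ K
  KZ : K ^ S0 s ≤ Real.exp Z
  E1 : Real.exp (-Z) ≤ E
  E2 : K ^ S0 s * E ≤ Real.exp Z
  xK : ∀ i, |(x i : ℝ)| + d * L ≤ K
  xE : ∀ i, (|(x i : ℝ)| + d * L) * L ≤ K * E

/-- the state with `J + 1` classes: the predicate `St` of `Chain.Ch` -/
def StC (s J N : ℕ) (A : Finset ℤ) (D R b Y Λ θ : ℝ) (c : ℕ) : Prop :=
  ∃ (ι : Type) (_ : Fintype ι) (_ : DecidableEq ι) (H : Dt ι) (m p L d : ℕ) (x : Fin m → ℤ)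
    (P Y0 X0 Z K E : ℝ) (Fam : Finset (Bx H.G m)),
    Tw s (s * (s + 1 - J)) N H R ∧ Sc s ι D R b Y Λ c m p L d x P Y0 X0 Z K E ∧
    Rs H.G H.WW (P ^ c) (P ^ c * Z) (S0 s) ∧ (J = 0 → x = 0 ∧ d = 1) ∧
    Real.exp (-Y0) * bm H.G H.T (ome (m := m) (S0 s) K E) ≤
      ∑ β ∈ Fam, bw H.G H.T (ome (S0 s) K E) 1 0 β ∧
    ∀ β ∈ Fam, θ ^ (p ^ (J + 1)) ≤ grdV (J + 1) p L (bx β x d (fA A b H.x0 H.l))

/-! ### Rows -/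

/-- a regular host is a tower with ordered groups -/
def EMB : Prop := ∀ (s N : ℕ) (A : Finset ℤ) (D R b c c' Y : ℝ), 1 ≤ s → 1 ≤ c → 1 ≤ Y →
  0 < b → 2 * c ≤ c' → Real.log (c * (Y + R)) ≤ c * Y → R < Real.log N → Rg.RHo s N A D R b c' Y →
    ∃ (ι : Type) (_ : Fintype ι) (_ : DecidableEq ι) (H : Dt ι), (Fintype.card ι : ℝ) ≤ D ∧
      Tw s s N H R ∧ H.l ≠ 0 ∧ Rs H.G H.WW c Y (S0 s) ∧
      ∑' z : ι → ℤ, H.G.nu H.T z ≤ ∑' z : ι → ℤ, H.G.nu H.T z * fA A b H.x0 H.l z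

/-- merge the groups by weight -/
def MERGE : Prop := ∀ s : ℕ, ∃ c : ℕ, ∀ (n N : ℕ) (A : Finset ℤ) (ι : Type) [Fintype ι]
  [DecidableEq ι] (H : Dt ι) (D R P b α : ℝ), 1 ≤ s → Tw s n N H R → Sz ι P 1 →
    (Fintype.card ι : ℝ) ≤ D → 1 ≤ R → 0 < α →
    Real.exp (-R) * H.G.dv univ ≤ ∑' z : ι → ℤ, H.G.nu H.T z →
    b * ∑' z : ι → ℤ, H.G.nu H.T z ≤ ∑' z : ι → ℤ, H.G.nu H.T z * fA A α H.x0 H.l z →
    Rg.Ho0 s N A D (P ^ c * R) (b * α)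

/-- a window with an increment is a host -/
def WIN : Prop := ∀ s : ℕ, ∃ c : ℕ, ∀ (n N M : ℕ) (A : Finset ℤ) (ι : Type) [Fintype ι]
  [DecidableEq ι] (H : Dt ι) (D R P Z δ κ a α : ℝ), 1 ≤ s → Tw s n N H R → Sz ι P 1 →
    (Fintype.card ι : ℝ) ≤ D → 1 ≤ R → 0 ≤ Z → 0 < α → δ ≤ 1 / 2 → Cnts H.G H.T M δ Z →
    Inc H.G H.T (fun z => fA A α H.x0 H.l z - a) κ Z →
    Rg.Ho0 s N A D (P ^ c * (R + Z)) ((κ + a) * α)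

/-- the field `stage` of the chain -/
def STAGE (s : ℕ) (η : ℝ) : Prop := ∀ (J c' : ℕ) (ε : ℝ), J < s → 0 < ε → ∃ c C : ℕ,
  ∀ (N : ℕ) (A : Finset ℤ) (D R b Y Λ Λ' θ : ℝ) (E : ℕ), C ≤ E → (C : ℝ) ≤ Y → A ⊆ rg N → 1 ≤ D →
    D ≤ Real.exp Y → 1 ≤ R → Real.exp (-Y) ≤ b → 1 ≤ θ → θ ≤ 1 + 3 * η → Y ^ E ≤ Λ' →
    (D * Y) ^ C * Λ' ≤ Λ → (D * Y) ^ C * (R + Λ) ≤ Real.log N →
    StC s (J + 1) N A D R b Y Λ θ c →
    Rg.Ho s N A (D + Y ^ E) ((D * Y) ^ C * (R + Λ)) ((1 + η) * b) ∨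
      StC s J N A (D + Y ^ E) ((D * Y) ^ C * (R + Λ)) b (Y ^ E) Λ' (θ - ε) c'

end

end Vale.Agent.P057T.Rst
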