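import Vale.Agent.P057T.Rst.St
import Vale.Agent.P057T.Rg.Defs2

/-! The embedding of a regular host, in the form of the entry row. -/

open Finset

namespace Vale.Agent.P057T.Rst

open Vale.Agent.P057T.Eq Vale.Agent.P057T.Cfg Vale.Agent.P057T.Sb

/-- a regular host is a tower with ordered groups -/
def EMB2 : Prop := ∀ (s N : ℕ) (A : Finset ℤ) (ι : Type) [Fintype ι] [DecidableEq ι] (S : Rg.St ι)
  (WW : ℕ → ℝ) (x0 : ℤ) (l : ι → ℤ) (R b c Y : ℝ), 1 ≤ s → 0 < b → Rg.Rh S WW x0 l s N A R b c Y →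
    Tw s s N ⟨S.G, S.AT, WW, x0, l⟩ R ∧ Rs S.G WW c Y (S0 s) ∧
      ∑' z : ι → ℤ, S.G.nu S.AT z ≤ ∑' z : ι → ℤ, S.G.nu S.AT z * fA A b x0 l z

end Vale.Agent.P057T.Rst
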