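import Vale.Agent.P057T.Rst.St
import Vale.Agent.P057T.Chain2

/-! The state of the chain on a law with a centre and a class. -/

open MvPolynomial Finset
open scoped Real BigOperators

namespace Vale.Agent.P057T.Rst

open Vale.Agent.P057T.Eq Vale.Agent.P057T.Cfg Vale.Agent.P057T.Sb Vale.Agent.P057L

noncomputable section

variable {ι : Type} [Fintype ι] [DecidableEq ι]

/-- a law of boxes: scales, centre of the slopes, class -/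
structure Lw (G : GT ι) (m : ℕ) where
  K : ℝ
  E : ℝ
  c : JI G.w (Option (Fin m)) → ℝ
  r : Bx G m
  n : ℕ

/-- the sizes of the centre and of the modulus -/
structure Lw.Ok {G : GT ι} {m : ℕ} (Q : Lw G m) (Y : ℝ) : Prop where
  c0 : ∀ x, x.1.2.degree - x.1.2 none = 0 → Q.c x = 0
  cY : ∀ x, |Q.c x| ≤ Real.exp Y
  n1 : 1 ≤ Q.n
  nY : (Q.n : ℝ) ≤ Real.exp Y

/-- weight of a box -/
def Lw.wt {G : GT ι} {m : ℕ} (Q : Lw G m) (T : AT ι) (s : ℕ) (β : Bx G m) : ℝ :=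
  bw G T (ome s Q.K Q.E) 1 Q.c β

/-- expected mass of the class -/
def Lw.ms {G : GT ι} {m : ℕ} (Q : Lw G m) (T : AT ι) (s : ℕ) : ℝ :=
  bm G T (ome (m := m) s Q.K Q.E) * (((Q.n : ℝ)) ^ Fintype.card (JI G.w (Option (Fin m))))⁻¹

/-- a dense family in the law -/
def Lw.Fm {G : GT ι} {m : ℕ} (Q : Lw G m) (T : AT ι) (s : ℕ) (Y : ℝ) (Fam : Finset (Bx G m)) : Prop :=
  (∀ β ∈ Fam, ∃ β' : Bx G m, β = Q.r + (Q.n : ℤ) • β') ∧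
    Real.exp (-Y) * Q.ms T s ≤ ∑ β ∈ Fam, Q.wt T s β

/-- the frame of a state: host, sizes, regularity, law -/
structure Fr (s n N : ℕ) (H : Dt ι) (D R b Y Λ : ℝ) (c m p L d : ℕ) (x : Fin m → ℤ)
    (P Y0 X0 Z : ℝ) (Q : Lw H.G m) : Prop where
  tw : Tw s n N H R
  sc : Sc s ι D R b Y Λ c m p L d x P Y0 X0 Z Q.K Q.E
  rs : Rs H.G H.WW (P ^ c) (P ^ c * Z) (S0 s)
  lw : Q.Ok Y0

/-- the state with `J + 1` classes -/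
def StG (s J N : ℕ) (A : Finset ℤ) (D R b Y Λ θ : ℝ) (c : ℕ) : Prop :=
  ∃ (ι : Type) (_ : Fintype ι) (_ : DecidableEq ι) (H : Dt ι) (m p L d : ℕ) (x : Fin m → ℤ)
    (P Y0 X0 Z : ℝ) (Q : Lw H.G m) (Fam : Finset (Bx H.G m)),
    Fr s (s * (s + 1 - J)) N H D R b Y Λ c m p L d x P Y0 X0 Z Q ∧ (J = 0 → x = 0 ∧ d = 1) ∧
    Q.Fm H.T (S0 s) Y0 Fam ∧
    ∀ β ∈ Fam, θ ^ (p ^ (J + 1)) ≤ grdV (J + 1) p L (bx β x d (fA A b H.x0 H.l))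

/-- widening: forget the centre and the class -/
def WID : Prop := ∀ (s m : ℕ) (ι : Type) [Fintype ι] [DecidableEq ι] (G : GT ι) (T : AT ι)
  (Q : Lw G m) (Y0 Y : ℝ) (Fam : Finset (Bx G m)), G.Ok s → T.U = univ → T.sg = (fun _ => 1) →
    0 < Q.K → 0 < Q.E → 1 ≤ Y0 → Q.Ok Y0 → Q.Fm T s Y Fam →
    Real.exp (-(Y + (3 * Y0 + 8) * Fintype.card (JI G.w (Option (Fin m))))) *
        bm G T (ome (m := m) s Q.K (Q.E * Real.exp (-Y0))) ≤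
      ∑ β ∈ Fam, bw G T (ome s Q.K (Q.E * Real.exp (-Y0))) 1 0 β

/-- the field `stage` of the chain -/
def STAGE3 (s : ℕ) (η : ℝ) : Prop := ∀ (J c' : ℕ) (ε : ℝ), J < s → 0 < ε → ∃ c C : ℕ,
  ∀ (N : ℕ) (A : Finset ℤ) (D R b Y Λ Λ' θ : ℝ) (E : ℕ), C ≤ E → (C : ℝ) ≤ Y → A ⊆ rg N → 1 ≤ D →
    D ≤ Real.exp Y → 1 ≤ R → Real.exp (-Y) ≤ b → 1 ≤ θ → θ ≤ 1 + 3 * η → Y ^ E ≤ Λ' →
    (D * Y) ^ C * Λ' ≤ Λ → (D * Y) ^ C * (R + Λ) ≤ Real.log N →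
    StG s (J + 1) N A D R b Y Λ θ c →
    Rg.Ho s N A (D + Y ^ E) ((D * Y) ^ C * (R + Λ)) ((1 + η) * b) ∨
      StG s J N A (D + Y ^ E) ((D * Y) ^ C * (R + Λ)) b (Y ^ E) Λ' (θ - ε) c'

theorem StC.stG {s J N : ℕ} {A : Finset ℤ} {D R b Y Λ θ : ℝ} {c : ℕ}
    (h : StC s J N A D R b Y Λ θ c) : StG s J N A D R b Y Λ θ c := by
  obtain ⟨ι, _, _, H, m, p, L, d, x, P, Y0, X0, Z, K, E, Fam, a1, a2, a3, a4, a5, a6⟩ := h
  have y0 : 0 ≤ Y0 := (Nat.cast_nonneg m).trans a2.mY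
  refine ⟨ι, _, _, H, m, p, L, d, x, P, Y0, X0, Z, ⟨K, E, 0, 0, 1⟩, Fam, ⟨a1, a2, a3,
    fun _ _ => rfl, fun _ => by simpa using (Real.exp_pos _).le, le_rfl,
    by simpa using y0⟩, a4, ⟨fun β _ => ⟨β, by simp⟩, ?_⟩, a6⟩
  simpa [Lw.ms, Lw.wt] using a5

end

end Vale.Agent.P057T.Rst
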