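import Vale.Agent.P057T.Rst.St3

/-! Widening: forget the centre and the class of a law. -/

set_option linter.all false

open MvPolynomial Finset
open scoped Real BigOperators

namespace Vale.Agent.P057T.Rst

open Vale.Agent.P057T.Eq Vale.Agent.P057T.Cfg Vale.Agent.P057T.Sb Vale.Agent.P057L

noncomputable section

namespace Wi

variable {ι V : Type} [Fintype ι] [DecidableEq ι] [Fintype V] [DecidableEq V]

theorem uv_sc (G : GT ι) (T : AT ι) (e : V → ℤ) (ω ω' l : (V →₀ ℕ) → ℝ) (h : ∀ ν, ω' ν = l ν * ω ν)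
    (U : Finset (JI G.w V)) (β : JI G.w V → ℤ) (x : JI G.w V) :
    uv (jet G V ω') (jat G T e ω' U) β x = l x.1.2 * uv (jet G V ω) (jat G T e ω U) β x := by
  simp only [uv, GT.ch, GT.th, jet, jat, map_add, map_sum, map_mul, eval_C, mul_add, mul_sum, h]
  congr 1
  · refine sum_congr rfl fun y _ => ?_
    split_ifs <;> ring
  · ring

theorem dv_sc (G : GT ι) (ω ω' l : (V →₀ ℕ) → ℝ) (h : ∀ ν, ω' ν = l ν * ω ν) :
    (jet G V ω').dv univ = |∏ x : (univ : Finset (JI G.w V)), (l x.1.1.2)⁻¹| * (jet G V ω).dv univ := by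
  rw [GT.dv, GT.dv, ← abs_mul, ← Matrix.det_mul_column]
  congr 2
  ext x y
  show (if x.1.1.2 = y.1.1.2 then (ω' x.1.1.2)⁻¹ * G.B x.1.1.1 y.1.1.1 else 0) = (l x.1.1.2)⁻¹ *
    (if x.1.1.2 = y.1.1.2 then (ω x.1.1.2)⁻¹ * G.B x.1.1.1 y.1.1.1 else 0)
  split_ifs
  · rw [h, mul_inv, mul_assoc]
  · rw [mul_zero]

end Wi

open Wi

theorem wid : WID := by
  intro s m ι _ _ G T Q Y0 Y Fam hG hU hs K0 E0 Y1 hQ hF
  obtain ⟨l, hl⟩ : ∃ l : (Option (Fin m) →₀ ℕ) → ℝ,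
    l = fun ν => if ν.degree - ν none = 0 then 1 else Real.exp (-Y0) := ⟨_, rfl⟩
  have h1 : ∀ ν, ome (m := m) s Q.K (Q.E * Real.exp (-Y0)) ν = l ν * ome s Q.K Q.E ν := fun ν => by
    rw [hl]
    unfold ome
    dsimp only
    split_ifs <;> ring
  obtain ⟨D, hD⟩ : ∃ D, D = Fintype.card (JI G.w (Option (Fin m))) := ⟨_, rfl⟩
  have D0 : (0 : ℝ) ≤ D := Nat.cast_nonneg _
  have e1 : Real.exp (-Y0) ≤ 1 / 2 := by
    rw [Real.exp_neg, one_div]
    exact inv_anti₀ (by norm_num) (by linarith [Real.add_one_le_exp Y0])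
  have e0 := Real.exp_pos (-Y0)
  have e2 : Real.exp (-Y0) * Real.exp Y0 = 1 := by rw [← Real.exp_add, neg_add_cancel, Real.exp_zero]
  have b1 : ∀ β, Real.exp (-(8 * D)) * Q.wt T s β ≤
      bw G T (ome s Q.K (Q.E * Real.exp (-Y0))) 1 0 β := fun β => by
    rw [Lw.wt, bw, bw, ww, ww, ← Real.exp_add]
    refine Real.exp_le_exp.2 ?_
    have t : ∑ x : JI G.w (Option (Fin m)), (T.sg x.1.1 * (1 * uv (jet G _ (ome s Q.K (Q.E * Real.exp (-Y0))))
        (jat G T (Cfg.e0 m) (ome s Q.K (Q.E * Real.exp (-Y0))) univ) β x - 0)) ^ 2 ≤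
        ∑ x : JI G.w (Option (Fin m)), ((T.sg x.1.1 * (1 * uv (jet G _ (ome s Q.K Q.E))
        (jat G T (Cfg.e0 m) (ome s Q.K Q.E) univ) β x - Q.c x)) ^ 2 + 2) := sum_le_sum fun x _ => by
      rw [uv_sc G T _ _ _ l h1, hs, hl]
      dsimp only
      generalize uv (jet G _ (ome s Q.K Q.E)) (jat G T (Cfg.e0 m) (ome s Q.K Q.E) univ) β x = u
      split_ifs with k
      · rw [hQ.c0 x k]; nlinarith
      · have c1 : |Real.exp (-Y0) * Q.c x| ≤ 1 := by
          rw [abs_mul, abs_of_pos e0, ← e2]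
          exact mul_le_mul_of_nonneg_left (hQ.cY x) e0.le
        have c2 : (Real.exp (-Y0) * Q.c x) ^ 2 ≤ 1 := by
          rw [← sq_abs]; exact pow_le_one₀ (abs_nonneg _) c1
        have c3 : (Real.exp (-Y0) * (u - Q.c x)) ^ 2 ≤ 1 / 4 * (u - Q.c x) ^ 2 := by
          rw [mul_pow]
          exact mul_le_mul_of_nonneg_right (by nlinarith) (sq_nonneg _)
        nlinarith [sq_nonneg (Real.exp (-Y0) * (u - Q.c x) - Real.exp (-Y0) * Q.c x),
          sq_nonneg (u - Q.c x)]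
    rw [sum_add_distrib, sum_const, card_univ, ← hD, nsmul_eq_mul] at t
    have t1 := mul_le_mul_of_nonneg_left t Real.pi_pos.le
    have t2 := mul_le_mul_of_nonneg_right Real.pi_le_four D0
    show -(8 * (D : ℝ)) + -π * ∑ x : JI G.w (Option (Fin m)), (T.sg x.1.1 * (1 * uv (jet G _ (ome s Q.K Q.E))
        (jat G T (Cfg.e0 m) (ome s Q.K Q.E) univ) β x - Q.c x)) ^ 2 ≤
      -π * ∑ x : JI G.w (Option (Fin m)), (T.sg x.1.1 * (1 * uv (jet G _ (ome s Q.K (Q.E * Real.exp (-Y0))))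
        (jat G T (Cfg.e0 m) (ome s Q.K (Q.E * Real.exp (-Y0))) univ) β x - 0)) ^ 2
    linarith
  have m0 : 0 ≤ bm G T (ome (m := m) s Q.K Q.E) := by
    rw [bm, GT.mn, hs]
    simp only [inv_one, prod_const_one, mul_one]
    exact abs_nonneg _
  have b2 : bm G T (ome (m := m) s Q.K (Q.E * Real.exp (-Y0))) ≤
      Real.exp (D * Y0) * bm G T (ome (m := m) s Q.K Q.E) := by
    rw [bm, bm, GT.mn, GT.mn, hs, dv_sc G _ _ l h1]
    simp only [inv_one, prod_const_one, mul_one]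
    refine mul_le_mul_of_nonneg_right ?_ (abs_nonneg _)
    rw [abs_prod, Real.exp_nat_mul, hD, ← card_univ, ← Fintype.card_coe, ← card_univ, ← prod_const]
    refine prod_le_prod (fun _ _ => abs_nonneg _) fun x _ => ?_
    rw [hl]
    dsimp only
    split_ifs
    · rw [inv_one, abs_one]; exact Real.one_le_exp (by linarith)
    · rw [Real.exp_neg, inv_inv, abs_of_pos (Real.exp_pos _)]
  have b3 : Real.exp (-(D * Y0)) ≤ ((Q.n : ℝ) ^ D)⁻¹ := by
    rw [Real.exp_neg, Real.exp_nat_mul]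
    exact inv_anti₀ (pow_pos (Nat.cast_pos.2 hQ.n1) _) (pow_le_pow_left₀ (Nat.cast_nonneg _) hQ.nY _)
  have b4 := hF.2
  rw [Lw.ms, ← hD] at b4
  rw [← hD]
  refine le_trans ?_ (sum_le_sum fun β _ => b1 β)
  rw [← mul_sum]
  refine le_trans ?_ (mul_le_mul_of_nonneg_left ((mul_le_mul_of_nonneg_left
    (mul_le_mul_of_nonneg_left b3 m0) (Real.exp_pos _).le).trans b4) (Real.exp_pos _).le)
  refine (mul_le_mul_of_nonneg_left b2 (Real.exp_pos _).le).trans ?_
  rw [mul_comm (bm G T _), ← mul_assoc, ← mul_assoc, ← mul_assoc, ← Real.exp_add, ← Real.exp_add,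
    ← Real.exp_add]
  refine mul_le_mul_of_nonneg_right (Real.exp_le_exp.2 ?_) m0
  nlinarith

end

end Vale.Agent.P057T.Rst
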