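import Vale.Agent.P057T.Rst.St
import Vale.Agent.P057T.Rg.Ent
import Vale.Agent.P057T.Cfg.Dil
import Vale.Agent.P057T.Eq.Summ

/-! A window with an increment is a host. -/

set_option linter.all false

open MvPolynomial Finset
open scoped Real BigOperators

namespace Vale.Agent.P057T.Rst

open Vale.Agent.P057T.Eq Vale.Agent.P057T.Cfg Vale.Agent.P057T.Sb Vale.Agent.P057L

noncomputable section

namespace WinA

variable {ι : Type} [Fintype ι] [DecidableEq ι] {s : ℕ}

theorem th_dil (G : GT ι) {n : ℕ} (hn : 1 ≤ n) (σ : ℝ) (z : ι → ℤ) (a : ι) :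
    eval (cz z) ((dil G n σ).th a) = σ * eval (cz ((n : ℤ) • z)) (G.th a) := by
  have hn0 : (n : ℝ) ≠ 0 := by positivity
  have e : ∀ F : MvPolynomial ι ℝ, eval (cz z) (aeval (fun b => C (n : ℝ) * X b) F) =
      eval (cz ((n : ℤ) • z)) F := fun F => by
    induction F using MvPolynomial.induction_on with
    | C x => simp
    | add F G h k => simp only [map_add, h, k]
    | mul_X F b h => simp only [map_mul, h, aeval_X, eval_C, eval_X]; simp [cz]
  simp only [GT.th, dil, map_sum, map_mul, map_sub, eval_C, eval_X, e, mul_sum, Matrix.smul_apply,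
    smul_eq_mul]
  refine sum_congr rfl fun b _ => ?_
  simp only [cz, Pi.smul_apply, smul_eq_mul, Int.cast_mul, Int.cast_natCast]
  field_simp

theorem aok1 {G : GT ι} (hG : G.Ok s) : G.AOk ⟨W1 G, fun _ => 0, fun _ => 1⟩ 1 where
  bk a b h := by simp only [W1, mem_filter, mem_univ, true_and, (hG.blk a b h).2]
  qv a ha b hb := by
    obtain ⟨m, hm, hbm⟩ := (mem_vars_iff_mem_support b).1 hb
    have h1 := hG.qh a (mem_support_iff.1 hm)
    have h2 := Finsupp.le_weight_of_ne_zero (w := G.w) (fun _ => Nat.zero_le _)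
      (Finsupp.mem_support_iff.1 hbm)
    have h3 := hG.w1 b
    have h4 := (mem_filter.1 ha).2
    exact mem_filter.2 ⟨mem_univ _, by omega⟩
  pv a _ := by simp
  pd a _ m hm := by simp at hm
  pl a _ b hb := by simp at hb
  s1 _ := by simp
  s2 _ := le_rfl

open Classical in
theorem kt_sum {G : GT ι} (hG : G.Ok s) (l : ι → ℤ) :
    Summable fun z : ι → ℤ => if z ∈ Lat (W1 G) ∧ ∑ a, l a * z a = 0 then
      Real.exp (-π * ∑ a ∈ W1 G, (eval (cz z) (G.th a)) ^ 2) else 0 := by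
  have h := summ s ι G _ 1 hG one_pos (aok1 hG)
  have h2 := (summable_subtype_iff_indicator (s := (Lat (W1 G) : Set (ι → ℤ)))
    (f := fun z => G.nu ⟨W1 G, fun _ => 0, fun _ => 1⟩ z)).1 h
  refine Summable.of_nonneg_of_le (fun z => by positivity) (fun z => ?_) h2
  split_ifs with k
  · rw [Set.indicator_of_mem (show z ∈ (Lat (W1 G) : Set (ι → ℤ)) from k.1)]
    simp [GT.nu, GT.ch]
  · exact Set.indicator_nonneg (fun _ _ => (Real.exp_pos _).le) _

theorem kt_dil {G : GT ι} (hG : G.Ok s) (l : ι → ℤ) {n : ℕ} (hn : 1 ≤ n) {σ : ℝ} (hσ : 1 ≤ σ) :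
    kt (dil G n σ) (fun a => n * l a) ≤ kt G l := by
  classical
  have hn0 : (n : ℤ) ≠ 0 := by positivity
  have hd := (dil_ok s ι G n σ hG hn (by linarith)).1
  refine Summable.tsum_le_tsum_of_inj (fun z => (n : ℤ) • z) (smul_right_injective _ hn0)
    (fun z _ => by positivity) (fun z => ?_) (kt_sum hd _) (kt_sum hG l)
  split_ifs with k1 k2
  · refine Real.exp_le_exp.2 (mul_le_mul_of_nonpos_left (sum_le_sum fun a _ => ?_)
      (by linarith [Real.pi_pos]))
    rw [th_dil G hn, mul_pow]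
    exact le_mul_of_one_le_left (sq_nonneg _) (one_le_pow₀ hσ)
  · refine absurd ⟨AddSubgroup.zsmul_mem _ k1.1 _, ?_⟩ k2
    rw [← k1.2]
    exact sum_congr rfl fun a _ => by simp only [Pi.smul_apply, smul_eq_mul]; ring
  · positivity
  · exact le_rfl

end WinA

open WinA in
theorem win (hM : MERGE) : WIN := by
  intro s
  obtain ⟨c, hc⟩ := hM s
  refine ⟨c + 2, ?_⟩
  intro n0 N M A ι _ _ H D R P Z δ κ a α hs hT hS hD hR hZ hα hδ hC hI
  obtain ⟨n, σ, y, c', hn, hnZ, hσ, hσZ, hI⟩ := hI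
  have hσ0 : 0 < σ := by linarith
  have hn0 : (0 : ℝ) < n := by exact_mod_cast hn
  have hP := hS.P2
  have hcd := hS.cd
  obtain ⟨d1, d2, d3, d4, -⟩ := dil_ok _ ι H.G n σ hT.ok hn hσ0
  have hσn : σ * n ≤ Real.exp (2 * Z) := by
    rw [two_mul, Real.exp_add]
    exact mul_le_mul hσZ hnZ hn0.le (Real.exp_pos _).le
  have hdv : ∀ V : Finset ι, Real.exp R * H.G.dv V ≤
      Real.exp (R + 2 * P * Z) * (dil H.G n σ).dv V := by
    intro V
    have h1 : (σ * n) ^ V.card ≤ Real.exp (2 * P * Z) := by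
      calc (σ * n) ^ V.card ≤ Real.exp (2 * Z) ^ V.card := pow_le_pow_left₀ (by positivity) hσn _
        _ = Real.exp (V.card * (2 * Z)) := (Real.exp_nat_mul _ _).symm
        _ ≤ _ := by
          have : (V.card : ℝ) ≤ P := le_trans (by exact_mod_cast card_le_univ V) hcd
          exact Real.exp_le_exp.2 (by nlinarith)
    have h2 : 0 < (σ * n) ^ V.card := by positivity
    rw [d2, Real.exp_add, mul_assoc]
    refine mul_le_mul_of_nonneg_left ?_ (Real.exp_pos _).le
    rw [mul_left_comm]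
    exact le_mul_of_one_le_right (Rg.dv_nonneg _ _) ((one_le_div h2).2 h1)
  let H1 : Dt ι := ⟨dil H.G n σ, dat H.G H.T y n σ c', fun g => H.WW g + 2 * Z, pj H.x0 H.l y,
    fun b => n * H.l b⟩
  have hT1 : Tw s n0 N H1 (R + 2 * P * Z) :=
    ⟨d1, hT.ws, hT.gs, fun Q hQ => (d4 H.T Q y c' (hT.ao Q hQ)).1, hT.un, hT.sg,
      d3 _ _ hT.wd (by linarith) hσn, by
        have := hT.w0
        show H.WW 0 + 2 * Z ≤ _
        nlinarith,
      fun b hb => hT.l1 b (right_ne_zero_of_mul hb),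
      (mul_le_mul_of_nonneg_left (kt_dil hT.ok H.l hn hσ) (Nat.cast_nonneg N)).trans
        (hT.kr.trans (hdv _))⟩
  have hnu : ∀ z, H1.G.nu H1.T z = ww H.G H.T σ c' (y + (n : ℤ) • z) :=
    (d4 H.T 1 y c' (hT.ao 1 le_rfl)).2
  have hf : ∀ z, fA A α H1.x0 H1.l z = fA A α H.x0 H.l (y + (n : ℤ) • z) := fun z => by
    have : pj H1.x0 H1.l z = pj H.x0 H.l (y + (n : ℤ) • z) := by
      simp only [H1, pj, Pi.add_apply, Pi.smul_apply, smul_eq_mul, mul_add, sum_add_distrib,
        add_assoc]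
      congr 2
      exact sum_congr rfl fun b _ => by ring
    simp only [fA, this]
  let E : Lat H.T.U ≃ (ι → ℤ) :=
    Equiv.subtypeUnivEquiv fun z b hb => absurd (hT.un ▸ mem_univ b) hb
  obtain ⟨k1, k2⟩ := hC.1 n σ hn hnZ hσ0 hσZ y c'
  have k3 : Summable fun z : ι → ℤ => ww H.G H.T σ c' (y + (n : ℤ) • z) := E.summable_iff.1 k1
  have k4 : ∑' z : Lat H.T.U, ww H.G H.T σ c' (y + (n : ℤ) • z.1) =
      ∑' z : ι → ℤ, ww H.G H.T σ c' (y + (n : ℤ) • z) :=
    E.tsum_eq fun z : ι → ℤ => ww H.G H.T σ c' (y + (n : ℤ) • z)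
  have k5 : H.G.mn H.T.sg H.T.U * ((σ * n) ^ H.T.U.card)⁻¹ = H1.G.dv univ := by
    rw [GT.mn, hT.sg, hT.un]
    simp only [inv_one, prod_const_one, mul_one]
    exact (d2 univ).symm
  rw [k4, k5] at k2
  have hR1 : 1 ≤ R + 2 * P * Z := by nlinarith [mul_nonneg (by linarith : 0 ≤ P) hZ]
  have hm := hc n0 N A ι H1 D (R + 2 * P * Z) P (κ + a) α hs hT1 hS hD hR1 hα (by
      simp only [hnu]
      have e2 : Real.exp (-(R + 2 * P * Z)) ≤ 1 / 2 := by
        have := Real.add_one_le_exp (R + 2 * P * Z)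
        rw [Real.exp_neg, one_div]
        exact inv_anti₀ two_pos (by linarith)
      have := Rg.dv_nonneg H1.G univ
      nlinarith [(abs_le.1 k2).1]) (by
      simp only [hnu, hf]
      have k6 : Summable fun z : ι → ℤ => ww H.G H.T σ c' (y + (n : ℤ) • z) *
          fA A α H.x0 H.l (y + (n : ℤ) • z) := by
        refine Summable.of_nonneg_of_le (fun z => mul_nonneg (Real.exp_pos _).le ?_) (fun z => ?_)
          (k3.mul_right (1 / α))
        · unfold fA; split_ifs <;> positivity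
        · refine mul_le_mul_of_nonneg_left ?_ (Real.exp_pos _).le
          unfold fA; split_ifs <;> [exact le_rfl; positivity]
      simp only [mul_sub] at hI
      rw [k6.tsum_sub (k3.mul_right a), tsum_mul_right] at hI
      linarith)
  refine Rg.En.ho0_mono hm le_rfl ?_ le_rfl
  have e : R + 2 * P * Z ≤ P ^ 2 * (R + Z) := by
    nlinarith [mul_nonneg (mul_nonneg (by linarith : 0 ≤ P) (by linarith : 0 ≤ P - 2)) hZ,
      mul_nonneg (by nlinarith : 0 ≤ P ^ 2 - 1) (by linarith : 0 ≤ R)]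
  calc P ^ c * (R + 2 * P * Z) ≤ P ^ c * (P ^ 2 * (R + Z)) :=
        mul_le_mul_of_nonneg_left e (pow_nonneg (by linarith) c)
    _ = _ := by ring

end

end Vale.Agent.P057T.Rst
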